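import Vale.Agent.P367.Bd3.B10

/-!
The values `v_p(γ, β)` depend continuously on the angles, they are odd in `γ`, and all the values
at all the depths fill exactly the open interval `(-P_*, P_*)`.
-/

open MeasureTheory ProbabilityTheory Filter Topology Matrix

namespace Vale.Agent.P367.H940

open Vale.Agent.P367.Gap Vale.Agent.P367.Lim

/-! ### Continuity -/

section Cont

variable {X : Type*} [TopologicalSpace X] {G B : X → ℕ → ℝ}

lemma cont_mix (hB : ∀ k, Continuous fun a => B a k) (k : ℕ) (b b' : Bool) :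
    Continuous fun a => mix (B a k) b b' := by
  unfold mix
  split_ifs
  · exact Complex.continuous_ofReal.comp (Real.continuous_cos.comp (hB k))
  · exact (continuous_const.mul (Complex.continuous_ofReal.comp
      (Real.continuous_sin.comp (hB k)))).neg

lemma cont_kap (hB : ∀ k, Continuous fun a => B a k) : ∀ (p : ℕ) (x : Pth p),
    Continuous fun a => kap (B a) p x := by
  intro p
  induction p with
  | zero => intro x; exact continuous_const
  | succ p ih => intro x; exact (cont_mix hB p _ _).mul (ih _)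

lemma cont_wgt (hB : ∀ k, Continuous fun a => B a k) (p : ℕ) (x : CP p) :
    Continuous fun a => wgt (B a) p x := by
  unfold wgt
  exact ((cont_kap hB p _).mul (Complex.continuous_conj.comp (cont_kap hB p _))).mul
    continuous_const

lemma cont_qh (hG : ∀ k, Continuous fun a => G a k) (p : ℕ) (x y : CP p) :
    Continuous fun a => qh (G a) p x y := by
  unfold qh
  exact continuous_finsetSum _ fun k _ => (hG k).mul continuous_const

lemma cont_qq (hG : ∀ k, Continuous fun a => G a k) (p : ℕ) (x y : CP p) :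
    Continuous fun a => qq (G a) p x y := by
  unfold qq
  exact continuous_finsetSum _ fun k _ => (hG k).mul continuous_const

lemma cont_gg (hG : ∀ k, Continuous fun a => G a k) (hB : ∀ k, Continuous fun a => B a k) :
    ∀ (p : ℕ) (x : CP p), Continuous fun a => gg (G a) (B a) p x := by
  intro p
  induction p with
  | zero => intro x; exact cont_wgt hB 0 x
  | succ p ih =>
    intro x
    refine (cont_wgt hB (p + 1) x).mul (Complex.continuous_exp.comp ?_)
    refine (continuous_const.mul (continuous_finsetSum _ fun y _ => ?_)).neg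
    exact (ih y).mul (Complex.continuous_ofReal.comp ((cont_qh hG p _ y).pow 2))

lemma cont_cx (hG : ∀ k, Continuous fun a => G a k) (hB : ∀ k, Continuous fun a => B a k)
    (p : ℕ) (x : CP p) : Continuous fun a => cx (G a) (B a) p x := by
  unfold cx
  refine (cont_wgt hB p x).mul (Complex.continuous_exp.comp ?_)
  refine (continuous_const.mul (continuous_finsetSum _ fun y _ => ?_)).neg
  exact (cont_gg hG hB p y).mul (Complex.continuous_ofReal.comp ((cont_qq hG p _ y).pow 2))

lemma cont_mx (hG : ∀ k, Continuous fun a => G a k) (hB : ∀ k, Continuous fun a => B a k)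
    (p : ℕ) (x : CP p) : Continuous fun a => mx (G a) (B a) p x := by
  unfold mx
  refine continuous_finsetSum _ fun y _ => ?_
  exact (cont_gg hG hB p y).mul (Complex.continuous_ofReal.comp
    ((cont_qq hG p _ y).mul continuous_const))

end Cont

/-- The limit of the characteristic functions of the aligned fields. -/
noncomputable def Ph (p : ℕ) (ξ : ℝ) (a : (Fin p → ℝ) × (Fin p → ℝ)) : ℂ :=
  ∑ x : CP p, cx (extA a.1) (extA a.2) p x *
    Complex.exp (-(ξ * mx (extA a.1) (extA a.2) p x) - (ξ : ℂ) ^ 2 / 2)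

lemma cont_extA (p k : ℕ) : Continuous fun γ : Fin p → ℝ => extA γ k := by
  unfold extA
  split_ifs with h
  · exact continuous_apply _
  · exact continuous_const

lemma cont_Ph (p : ℕ) (ξ : ℝ) : Continuous (Ph p ξ) := by
  have hG : ∀ k, Continuous fun a : (Fin p → ℝ) × (Fin p → ℝ) => extA a.1 k :=
    fun k => (cont_extA p k).comp continuous_fst
  have hB : ∀ k, Continuous fun a : (Fin p → ℝ) × (Fin p → ℝ) => extA a.2 k :=
    fun k => (cont_extA p k).comp continuous_snd
  unfold Ph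
  refine continuous_finsetSum _ fun x _ => ?_
  refine (cont_cx hG hB p x).mul (Complex.continuous_exp.comp ?_)
  exact ((continuous_const.mul (cont_mx hG hB p x)).neg).sub continuous_const

/-- The limit value is the derivative of `Ph` at `0`, up to an explicit error. -/
lemma Ph_bound (p : ℕ) (ξ : ℝ) (a : (Fin p → ℝ) × (Fin p → ℝ)) :
    ‖Ph p ξ a - 1 + Complex.I * ξ * ((2 * vLim p a.1 a.2 : ℝ) : ℂ)‖
      ≤ 12 * Real.exp (1 / 2 + 2 * ∑ k, |a.1 k|) * ξ ^ 2 := by
  have h1 := tendsto_char_alf p a.1 a.2 ξ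
  have h2 : Tendsto (fun m : ℕ => amean (m + 1) p a.1 a.2) atTop (𝓝 (2 * vLim p a.1 a.2)) := by
    have h3 := ((tendsto_add_atTop_iff_nat 1).2 (tendsto_vLim p a.1 a.2)).const_mul 2
    refine h3.congr fun m => ?_
    rw [qaoaValue_eq_amean]
    ring
  have h4 : Tendsto (fun m : ℕ => ((amean (m + 1) p a.1 a.2 : ℝ) : ℂ)) atTop
      (𝓝 ((2 * vLim p a.1 a.2 : ℝ) : ℂ)) := (Complex.continuous_ofReal.tendsto _).comp h2
  have h5 := ((h1.sub_const 1).add (h4.const_mul (Complex.I * ξ))).norm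
  exact le_of_tendsto h5 (Eventually.of_forall fun m => char_mean (Nat.succ_pos m) p a.1 a.2 ξ)

/-- The infinite-size value is a continuous function of all the angles. -/
theorem continuous_vLim (p : ℕ) :
    Continuous fun a : (Fin p → ℝ) × (Fin p → ℝ) => vLim p a.1 a.2 := by
  rw [continuous_iff_continuousAt]
  intro a
  rw [ContinuousAt, Metric.tendsto_nhds]
  intro ε hε
  set K : (Fin p → ℝ) × (Fin p → ℝ) → ℝ := fun b => 12 * Real.exp (1 / 2 + 2 * ∑ k, |b.1 k|)
    with hK
  have hKc : Continuous K := by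
    rw [hK]
    refine continuous_const.mul (Real.continuous_exp.comp ?_)
    refine continuous_const.add (continuous_const.mul (continuous_finsetSum _ fun k _ => ?_))
    exact ((continuous_apply k).comp continuous_fst).abs
  have hK0 : 0 < K a := by rw [hK]; positivity
  set M : ℝ := 2 * K a + 1 with hM
  have hM0 : 0 < M := by positivity
  set ξ : ℝ := ε / M with hξ
  have hξ0 : 0 < ξ := by positivity
  have e1 : ∀ᶠ b in 𝓝 a, K b < K a + 1 :=
    (hKc.tendsto a).eventually (gt_mem_nhds (by linarith))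
  have e2 : ∀ᶠ b in 𝓝 a, dist (Ph p ξ b) (Ph p ξ a) < ξ * ε := by
    have := Metric.tendsto_nhds.1 ((cont_Ph p ξ).tendsto a) (ξ * ε) (by positivity)
    exact this
  filter_upwards [e1, e2] with b hb1 hb2
  have h1 := Ph_bound p ξ a
  have h2 := Ph_bound p ξ b
  rw [dist_eq_norm] at hb2
  have h3 : Complex.I * ξ * ((2 * vLim p b.1 b.2 - 2 * vLim p a.1 a.2 : ℝ) : ℂ)
      = (Ph p ξ b - 1 + Complex.I * ξ * ((2 * vLim p b.1 b.2 : ℝ) : ℂ))
        - (Ph p ξ a - 1 + Complex.I * ξ * ((2 * vLim p a.1 a.2 : ℝ) : ℂ))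
        - (Ph p ξ b - Ph p ξ a) := by
    push_cast
    ring
  have h4 : ‖Complex.I * ξ * ((2 * vLim p b.1 b.2 - 2 * vLim p a.1 a.2 : ℝ) : ℂ)‖
      = ξ * |2 * vLim p b.1 b.2 - 2 * vLim p a.1 a.2| := by
    rw [norm_mul, norm_mul, Complex.norm_I, one_mul, Complex.norm_real, Complex.norm_real,
      Real.norm_eq_abs, Real.norm_eq_abs, abs_of_pos hξ0]
  have h5 : ξ * |2 * vLim p b.1 b.2 - 2 * vLim p a.1 a.2| < ξ * (2 * ε) := by
    rw [← h4, h3]
    calc ‖(Ph p ξ b - 1 + Complex.I * ξ * ((2 * vLim p b.1 b.2 : ℝ) : ℂ))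
        - (Ph p ξ a - 1 + Complex.I * ξ * ((2 * vLim p a.1 a.2 : ℝ) : ℂ))
        - (Ph p ξ b - Ph p ξ a)‖ ≤ K b * ξ ^ 2 + K a * ξ ^ 2 + ‖Ph p ξ b - Ph p ξ a‖ := by
          refine (norm_sub_le _ _).trans ?_
          refine add_le_add_left ((norm_sub_le _ _).trans (add_le_add h2 h1)) _
      _ < (K a + 1) * ξ ^ 2 + K a * ξ ^ 2 + ξ * ε := by
          have := mul_lt_mul_of_pos_right hb1 (pow_pos hξ0 2)
          linarith
      _ = ξ * (M * ξ) + ξ * ε := by rw [hM]; ring
      _ = ξ * (2 * ε) := by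
          have : M * ξ = ε := by rw [hξ]; field_simp
          rw [this]; ring
  have h6 := lt_of_mul_lt_mul_left h5 hξ0.le
  rw [Real.dist_eq]
  have h7 : |2 * vLim p b.1 b.2 - 2 * vLim p a.1 a.2| = 2 * |vLim p b.1 b.2 - vLim p a.1 a.2| := by
    rw [← mul_sub, abs_mul, abs_two]
  rw [h7] at h6
  linarith

/-! ### Symmetry -/

lemma costOp_neg {n : ℕ} (J : Pair n → ℝ) : costOp (-J) = -costOp J := by
  unfold costOp
  rw [← smul_neg, ← Finset.sum_neg_distrib]
  congr 1
  refine Finset.sum_congr rfl fun e _ => ?_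
  rw [Pi.neg_apply, Complex.ofReal_neg, neg_smul]

lemma qaoaState_neg {n : ℕ} (J : Pair n → ℝ) : ∀ (p : ℕ) (γ β : Fin p → ℝ),
    qaoaState (-J) p γ β = qaoaState J p (-γ) β := by
  intro p
  induction p with
  | zero => intro γ β; rfl
  | succ p ih =>
    intro γ β
    rw [qaoaState, qaoaState, ih, costOp_neg]
    have h1 : (-(Complex.I * (γ (Fin.last p) : ℂ))) • -costOp J =
        (-(Complex.I * (((-γ) (Fin.last p) : ℝ) : ℂ))) • costOp J := by
      rw [Pi.neg_apply, Complex.ofReal_neg, smul_neg, ← neg_smul]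
      congr 1
      ring
    rw [h1]
    rfl

lemma qaoaMean_neg {n : ℕ} (J : Pair n → ℝ) (p : ℕ) (γ β : Fin p → ℝ) :
    qaoaMean (-J) p γ β = -qaoaMean J p (-γ) β := by
  unfold qaoaMean
  rw [qaoaState_neg, costOp_neg, Matrix.neg_mulVec, dotProduct_neg, Complex.neg_re]

lemma coupling_neg (n : ℕ) : MeasurePreserving (fun J : Pair n → ℝ => -J)
    (couplingLaw n) (couplingLaw n) := by
  unfold couplingLaw
  have h : ∀ _ : Pair n, MeasurePreserving (fun x : ℝ => -x) (gaussianReal 0 1)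
      (gaussianReal 0 1) := fun _ => ⟨measurable_neg, by
    rw [gaussianReal_map_neg, neg_zero]⟩
  exact measurePreserving_pi _ _ h

lemma qaoaValue_neg (n p : ℕ) (γ β : Fin p → ℝ) :
    qaoaValue n p (-γ) β = -qaoaValue n p γ β := by
  unfold qaoaValue
  rw [← mul_neg, ← integral_neg]
  congr 1
  have h := (coupling_neg n).integral_comp (MeasurableEquiv.neg (Pair n → ℝ)).measurableEmbedding
    (fun J => -qaoaMean J p γ β)
  rw [← h]
  refine integral_congr_ae (Eventually.of_forall fun J => ?_)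
  simp only [qaoaMean_neg, neg_neg]

/-- The values are odd in the phases `γ`. -/
theorem vLim_neg (p : ℕ) (γ β : Fin p → ℝ) : vLim p (-γ) β = -vLim p γ β := by
  refine tendsto_nhds_unique (tendsto_vLim p (-γ) β) ?_
  refine (tendsto_vLim p γ β).neg.congr fun n => ?_
  exact (qaoaValue_neg n p γ β).symm

/-! ### All the values -/

lemma vLim_lt (p : ℕ) (γ β : Fin p → ℝ) : vLim p γ β < Pstar :=
  (vLim_le p γ β).trans_lt (sub_lt_self _ (Real.exp_pos _))

lemma neg_lt_vLim (p : ℕ) (γ β : Fin p → ℝ) : -Pstar < vLim p γ β := by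
  have h := vLim_lt p (-γ) β
  rw [vLim_neg] at h
  linarith

/-- On the segment from `(-γ, β)` to `(γ, β)` all the values between `-v` and `v` occur. -/
lemma exists_scale (p : ℕ) (γ β : Fin p → ℝ) (e : ℝ) (he : |e| ≤ vLim p γ β) :
    ∃ t ∈ Set.Icc (-1 : ℝ) 1, vLim p (fun k => t * γ k) β = e := by
  obtain ⟨φ, hφ⟩ : ∃ φ : ℝ → ℝ, ∀ t, φ t = vLim p (fun k => t * γ k) β := ⟨_, fun _ => rfl⟩
  have hc : Continuous φ := by
    have h1 : Continuous fun t : ℝ => ((fun k => t * γ k, β) : (Fin p → ℝ) × (Fin p → ℝ)) := by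
      refine Continuous.prodMk (continuous_pi fun k => ?_) continuous_const
      exact continuous_id.mul continuous_const
    refine ((continuous_vLim p).comp h1).congr fun t => ?_
    rw [hφ, Function.comp_apply]
  have h1 : φ 1 = vLim p γ β := by
    rw [hφ]; simp only [one_mul]
  have h2 : φ (-1) = -vLim p γ β := by
    have h4 : (fun k => (-1 : ℝ) * γ k) = -γ := by
      funext k
      simp
    rw [← vLim_neg, hφ, h4]
  obtain ⟨v, hv⟩ : ∃ v, v = vLim p γ β := ⟨_, rfl⟩
  rw [← hv] at h1 h2 he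
  have h3 : e ∈ Set.Icc (φ (-1)) (φ 1) := by
    rw [h1, h2]
    exact abs_le.1 he
  obtain ⟨t, ht, hte⟩ := intermediate_value_Icc (by norm_num : (-1 : ℝ) ≤ 1) hc.continuousOn h3
  exact ⟨t, ht, (hφ t).symm.trans hte⟩

/-- Near-optimal angles at some depth. -/
lemma exists_angles (hQ : Tendsto Qsup atTop (𝓝 Pstar)) (e : ℝ) (he : e < Pstar) :
    ∃ (p : ℕ) (γ β : Fin p → ℝ), e < vLim p γ β := by
  obtain ⟨p, hp⟩ := (hQ.eventually (lt_mem_nhds he)).exists
  unfold Qsup at hp
  obtain ⟨a, ha⟩ := exists_lt_of_lt_ciSup hp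
  exact ⟨p, a.1, a.2, ha⟩

/-- The energy densities of the constant-depth states are exactly the numbers strictly between
`-P_*` and `P_*`. -/
theorem range_vLim (hQ : Tendsto Qsup atTop (𝓝 Pstar)) :
    {v : ℝ | ∃ (p : ℕ) (γ β : Fin p → ℝ), vLim p γ β = v} = Set.Ioo (-Pstar) Pstar := by
  ext e
  constructor
  · rintro ⟨p, γ, β, rfl⟩
    exact ⟨neg_lt_vLim p γ β, vLim_lt p γ β⟩
  · rintro ⟨h1, h2⟩
    obtain ⟨p, γ, β, h3⟩ := exists_angles hQ |e| (abs_lt.2 ⟨h1, h2⟩)
    obtain ⟨t, -, ht⟩ := exists_scale p γ β e h3.le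
    exact ⟨p, fun k => t * γ k, β, ht⟩

/-- One depth and one choice of `β` suffice for all energies in a compact part of the interval;
the phases are the multiples `t γ` of one vector. -/
theorem one_depth (hQ : Tendsto Qsup atTop (𝓝 Pstar)) (ε : ℝ) (hε : 0 < ε) :
    ∃ (p : ℕ) (γ β : Fin p → ℝ), ∀ e : ℝ, |e| ≤ Pstar - ε →
      ∃ t ∈ Set.Icc (-1 : ℝ) 1, vLim p (fun k => t * γ k) β = e := by
  obtain ⟨p, γ, β, h⟩ := exists_angles hQ (Pstar - ε) (by linarith)
  exact ⟨p, γ, β, fun e he => exists_scale p γ β e (he.trans h.le)⟩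

/-- Rational angles suffice. -/
theorem rational_angles (hQ : Tendsto Qsup atTop (𝓝 Pstar)) (ε : ℝ) (hε : 0 < ε) :
    ∃ (p : ℕ) (γ β : Fin p → ℚ),
      Pstar - ε < vLim p (fun k => (γ k : ℝ)) (fun k => (β k : ℝ)) := by
  obtain ⟨p, γ, β, h⟩ := exists_angles hQ (Pstar - ε) (by linarith)
  have hd : DenseRange fun q : Fin p → ℚ => fun k => ((q k : ℚ) : ℝ) :=
    DenseRange.piMap fun _ => Rat.denseRange_cast
  have hd2 : DenseRange (Prod.map (fun q : Fin p → ℚ => fun k => ((q k : ℚ) : ℝ))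
      (fun q : Fin p → ℚ => fun k => ((q k : ℚ) : ℝ))) := hd.prodMap hd
  have ho : IsOpen {a : (Fin p → ℝ) × (Fin p → ℝ) | Pstar - ε < vLim p a.1 a.2} :=
    isOpen_lt continuous_const (continuous_vLim p)
  obtain ⟨q, hq⟩ := hd2.exists_mem_open ho ⟨(γ, β), h⟩
  exact ⟨p, q.1, q.2, hq⟩

end Vale.Agent.P367.H940
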